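import Vale.Agent.P275Z.Mid
import Vale.Agent.P275PA.Wt
import Vale.Agent.P275S.Trunc

/-!
# P275, the weight filtration is functorial for maps of pairs
-/

open CategoryTheory DerivedCategory
open P275S Vale.Agent.P275Z

noncomputable section

set_option backward.isDefEq.respectTransparency false

namespace Vale.Agent.P275PU

section sheaf

variable {k : Type} [Field k] {Y Y' : TopCat.{0}} {G : Cx k Y'} {m r : ℤ}

/-- A class that comes from the truncation after a direct image comes from the truncation. -/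
theorem trLE_of_push (F : Y' ⟶ Y) (c : sec (G.X m) ⊤)
    (hc : app (G.d m (m + 1)) ⊤ c = 0)
    (h : TrLE r (cls (F := (pushC k F).obj G) c hc)) : TrLE r (cls c hc) := by
  obtain ⟨K0, _, ⟨e⟩⟩ :=
    exists_iso_Q_obj_of_isGE ((TStructure.t.truncGT r).obj (Q.obj G : Der k Y')) (r + 1)
  obtain ⟨L, i, _, hL, hL'⟩ :=
    CochainComplex.Plus.modelCategoryQuillen.exists_quasiIso_injective K0 (r + 1)
  have hI : InjC L := ⟨⟨_, hL'⟩, hL⟩
  obtain ⟨g, hg⟩ := P275JM.Q_surj hI ((TStructure.t.truncGTπ r).app (Q.obj G) ≫ e.hom ≫ Q.map i)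
  have := mapC_isStrictlyGE (push k F) L (r + 1)
  have h1 := h.zero (Q.map ((pushC k F).map g))
  rw [cls_comp] at h1
  have h2 : cls _ (cocy_map g hc) = 0 :=
    (hI.clsOK.eq_zero_iff _).2 (((hI.push F).clsOK.eq_zero_iff _).1 h1)
  rw [← cls_comp c hc, hg, ← Category.assoc, ← Category.assoc,
    Preadditive.IsIso.comp_right_eq_zero, Preadditive.IsIso.comp_right_eq_zero] at h2
  exact (trLE_iff_zero _).2 h2

end sheaf

variable {X X' Y Y' : TopCat.{0}} {m w : ℤ}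

/-- the class of a cocycle in the cohomology ring -/
def cH (c : CocyK ℂ X m) : H ℂ X := (evI ℂ X).symm (gcl c.1 c.2)

theorem evX_cH (c : CocyK ℂ X m) : evX X (cH c) = cl c := evX_gcl c

theorem cH_mem (c : CocyK ℂ X m) : cH c ∈ Hd ℂ X m :=
  evI_mem_iff.1 (by rw [cH, LinearEquiv.apply_symm_apply]; exact gcl_mem _ _)

theorem ex_cH {a : H ℂ X} (ha : a ∈ Hd ℂ X m) : ∃ c : CocyK ℂ X m, cH c = a := by
  obtain ⟨c, hc, e⟩ := exists_gcl (evI_mem_iff.2 ha)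
  exact ⟨⟨c, hc⟩, by rw [cH, LinearEquiv.symm_apply_eq]; exact e⟩

theorem cH_mem_WH (j : X ⟶ Y) (c : CocyK ℂ X m) :
    cH c ∈ WH j w ↔ TrLE (w - m) (clsK j c) := by
  rw [WH, Submodule.mem_comap, LinearEquiv.coe_coe, evX_cH, P275PA.cl_mem_Wt]
  rfl

theorem WH_ind (j : X ⟶ Y) {S : Submodule ℂ (H ℂ X)}
    (h : ∀ (m : ℤ) (c : CocyK ℂ X m), TrLE (w - m) (clsK j c) → cH c ∈ S) : WH j w ≤ S := by
  intro a ha
  have : Wt j w ≤ S.comap (evX X).symm.toLinearMap := Submodule.span_le.2 (by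
    rintro _ ⟨m, c, hc, rfl⟩
    have := h m c hc
    rwa [← evX_cH, SetLike.mem_coe, Submodule.mem_comap, LinearEquiv.coe_coe,
      LinearEquiv.symm_apply_apply])
  simpa using this ha

/-- the pull-back of a cocycle -/
def pbC (f : X' ⟶ X) (c : CocyK ℂ X m) : CocyK ℂ X' m :=
  ⟨app ((pullC ℂ f).f m) ⊤ c.1, cocy_map (pullC ℂ f) c.2⟩

theorem pb_cH (f : X' ⟶ X) (c : CocyK ℂ X m) : pb f (cH c) = cH (pbC f c) := by
  refine (evK f).injective ?_
  rw [evK_pb, evK_eq, ← Category.assoc, ← evI_apply, cH, cH, LinearEquiv.apply_symm_apply,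
    LinearEquiv.apply_symm_apply]
  exact (gcl_comp_hom c.1 c.2 (pullC ℂ f)).trans (cU_gcl f (pbC f c).1 (pbC f c).2).symm

theorem pb_WH_comp (f : X' ⟶ X) (j : X ⟶ Y) {a : H ℂ X} (ha : a ∈ WH j w) :
    pb f a ∈ WH (f ≫ j) w := by
  refine WH_ind j (S := (WH (f ≫ j) w).comap (pb f).toLinearMap) (fun m c hc => ?_) ha
  change pb f (cH c) ∈ WH (f ≫ j) w
  rw [pb_cH, cH_mem_WH]
  exact trLE_cls_map ((pushC ℂ j).map (pullC ℂ f)) hc

theorem WH_comp_le (j : X ⟶ Y') (F : Y' ⟶ Y) : WH (j ≫ F) w ≤ WH j w :=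
  WH_ind _ fun _ c hc => (cH_mem_WH j c).2 (trLE_of_push (G := (pushC ℂ j).obj (I ℂ X)) F c.1 c.2 hc)

/-- **PUSH, sheaf form**: the pull-back along a map of pairs preserves the weights. -/
theorem pb_WH {f : X' ⟶ X} {j : X ⟶ Y} {j' : X' ⟶ Y'} {F : Y' ⟶ Y} (h : f ≫ j = j' ≫ F)
    {a : H ℂ X} (ha : a ∈ WH j w) : pb f a ∈ WH j' w :=
  WH_comp_le j' F (h ▸ pb_WH_comp f j ha)

theorem pr_WH (j : X ⟶ Y) {a : H ℂ X} (ha : a ∈ WH j w) (m : ℤ) : KG.pr m a ∈ WH j w := by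
  refine WH_ind j (S := (WH j w).comap (KG.pr m)) (fun n c hc => ?_) ha
  change KG.pr m (cH c) ∈ WH j w
  by_cases e : n = m
  · subst e
    rw [KG.pr_of_mem (cH_mem c), cH_mem_WH]
    exact hc
  · rw [KG.pr_of_ne (cH_mem c) e]
    exact zero_mem _

theorem WH_mono (j : X ⟶ Y) {w w' : ℤ} (h : w ≤ w') : WH j w ≤ WH j w' :=
  WH_ind j fun _ c hc => (cH_mem_WH j c).2 (hc.mono (by omega))

/-- Classes that extend to the compactification are pure. -/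
theorem pb_mem_WH (j : X ⟶ Y) {b : H ℂ Y} (hb : b ∈ Hd ℂ Y m) : pb j b ∈ WH j m := by
  refine pb_WH (j := 𝟙 Y) (F := 𝟙 Y) rfl ?_
  obtain ⟨c, rfl⟩ := ex_cH hb
  rw [cH_mem_WH, sub_self]
  have : (RK ℂ (𝟙 Y)).IsLE 0 :=
    TStructure.t.isLE_of_iso (asIso (Q.map (ιI ℂ Y) : (Q.obj (cstAt ℂ Y 0) : Der ℂ Y) ⟶ _)) 0
  exact trLE_of_tgt _

end Vale.Agent.P275PU
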